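import Vale.Agent.P074.Example
import Vale.Agent.P074.OneThird

/-!
The sharp stability exponents of quadratic optimal transport maps.
-/

noncomputable section

open MeasureTheory Set

namespace Vale.Agent.Results.P074.StabilityExponents

open Vale.Agent.P074

/-- In every dimension at least two, the largest admissible exponent for `W₂` is one third, it is
attained, one half is not admissible, and the largest admissible exponent for `W₁` is one quarter. -/
theorem result :
    ∀ d : ℕ, 2 ≤ d →
      IsGreatest {α : ℝ | α ∈ Ioc 0 1 ∧ StableExponent d W2 α} (1/3) ∧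
      (∀ α : ℝ, 1/3 < α → ¬ StableExponent d W2 α) ∧
      ¬ StableExponent d W2 (1/2) ∧
      IsGreatest {α : ℝ | α ∈ Ioc 0 1 ∧ StableExponent d W1 α} (1/4) := by
  intro d hd
  obtain ⟨n, rfl⟩ : ∃ n, d = n + 2 := ⟨d - 2, by omega⟩
  refine ⟨⟨⟨⟨by norm_num, by norm_num⟩, stable_W2_oneThird⟩, fun α hα => Example.exponent_W2_le hα.2⟩,
    fun α hα h => ?_, fun h => ?_,
    ⟨⟨⟨by norm_num, by norm_num⟩, stable_W1⟩, fun α hα => Example.exponent_W1_le hα.2⟩⟩
  · have := Example.exponent_W2_le h; linarith
  · have := Example.exponent_W2_le h; linarith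

end Vale.Agent.Results.P074.StabilityExponents
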